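import Vale.Agent.P129BZ.Scal
import Vale.Agent.P129B.Real

/-!
# Inner products inside a model: projections, the Riesz theorem, adjoints
-/

set_option autoImplicit false
set_option linter.all false

namespace Vale.Agent.P070Z34

open Vale.Agent.P129B

universe v

variable {R : Type*} [Field R] [LinearOrder R] [IsStrictOrderedRing R]
  {K : Type*} [Field K] [Algebra R K] [Nm K R] [KA R K]
  {H : Type*} [AddCommGroup H] [Module K H] [Nm H R]

/-- `ip` is an inner product inducing the norm, linear in the second slot. -/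
structure IsIP (ip : H → H → K) : Prop where
  add : ∀ x y z, ip x (y + z) = ip x y + ip x z
  smul : ∀ (c : K) x y, ip x (c • y) = c * ip x y
  conj : ∀ x y, ip y x = KA.conj (ip x y)
  self : ∀ x, ip x x = algebraMap R K (nm x ^ 2)

namespace IsIP

variable {ip : H → H → K} (h : IsIP ip)
include h

theorem zero_right (x : H) : ip x 0 = 0 := by
  have := h.smul 0 x 0
  rwa [zero_smul, zero_mul] at this

theorem neg_right (x y : H) : ip x (-y) = -ip x y := by
  have := h.smul (-1) x y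
  rwa [neg_one_smul, neg_one_mul] at this

theorem sub_right (x y z : H) : ip x (y - z) = ip x y - ip x z := by
  rw [sub_eq_add_neg, h.add, h.neg_right, ← sub_eq_add_neg]

theorem add_left (x y z : H) : ip (x + y) z = ip x z + ip y z := by
  rw [h.conj z (x + y), h.add, map_add, ← h.conj, ← h.conj]

theorem smul_left (c : K) (x y : H) : ip (c • x) y = KA.conj c * ip x y := by
  rw [h.conj y (c • x), h.smul, map_mul, ← h.conj]

theorem zero_left (x : H) : ip 0 x = 0 := by rw [h.conj x 0, h.zero_right, map_zero]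

theorem neg_left (x y : H) : ip (-x) y = -ip x y := by
  rw [h.conj y (-x), h.neg_right, map_neg, ← h.conj]

theorem sub_left (x y z : H) : ip (x - y) z = ip x z - ip y z := by
  rw [sub_eq_add_neg, h.add_left, h.neg_left, ← sub_eq_add_neg]

theorem re_self (x : H) : KA.re (ip x x) = nm x ^ 2 := by rw [h.self, KA.re_ofR]

theorem re_symm (x y : H) : KA.re (ip y x) = KA.re (ip x y) := by rw [h.conj x y, KA.re_conj]

theorem eq_zero_symm {x y : H} (h0 : ip x y = 0) : ip y x = 0 := by rw [h.conj x y, h0, map_zero]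

theorem nm_add_sq (x y : H) : nm (x + y) ^ 2 = nm x ^ 2 + 2 * KA.re (ip x y) + nm y ^ 2 := by
  rw [← h.re_self, h.add_left, h.add, h.add, map_add, map_add, map_add, h.re_self, h.re_self,
    h.re_symm x y]; ring

theorem nm_sub_sq (x y : H) : nm (x - y) ^ 2 = nm x ^ 2 - 2 * KA.re (ip x y) + nm y ^ 2 := by
  rw [← h.re_self, h.sub_left, h.sub_right, h.sub_right, map_sub, map_sub, map_sub, h.re_self,
    h.re_self, h.re_symm x y]; ring

theorem parallelogram (x y : H) :
    nm (x + y) ^ 2 + nm (x - y) ^ 2 = 2 * nm x ^ 2 + 2 * nm y ^ 2 := by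
  rw [h.nm_add_sq, h.nm_sub_sq]; ring

variable [NA R K H]

theorem eq_zero_of_self {x : H} (h0 : ip x x = 0) : x = 0 := by
  have := h.re_self x
  rw [h0, map_zero] at this
  exact nm_eq_zero.1 (pow_eq_zero_iff two_ne_zero |>.1 this.symm)

theorem ext_left {x y : H} (h0 : ∀ z, ip x z = ip y z) : x = y :=
  sub_eq_zero.1 (h.eq_zero_of_self (by rw [h.sub_left, h0, sub_self]))

theorem ext_right {x y : H} (h0 : ∀ z, ip z x = ip z y) : x = y :=
  sub_eq_zero.1 (h.eq_zero_of_self (by rw [h.sub_right, h0, sub_self]))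

theorem re_le (x y : H) : KA.re (ip x y) ≤ nm x * nm y := by
  have h1 := h.nm_add_sq x y
  have h2 := nm_add_le x y
  have h3 := nm_nonneg (x + y)
  nlinarith

/-- Cauchy–Schwarz -/
theorem nm_le (x y : H) : nm (ip x y) ≤ nm x * nm y := by
  have := h.re_le x (KA.rot (ip x y) • y)
  rwa [h.smul, KA.rot_mul, KA.re_ofR, nm_smul, KA.nm_rot, one_mul] at this

/-- a nearest point gives an orthogonal remainder -/
theorem orth_of_min {u w : H} (hm : ∀ c : K, nm u ^ 2 ≤ nm (u - c • w) ^ 2) : ip w u = 0 := by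
  by_contra h0
  have hw : w ≠ 0 := fun hw => h0 (by rw [hw, h.zero_left])
  have hp : 0 < nm w ^ 2 := pow_pos (nm_pos_iff.2 hw) 2
  have hq : 0 < nm (ip w u) ^ 2 := pow_pos (nm_pos_iff.2 h0) 2
  have h1 := hm (algebraMap R K (nm w ^ 2)⁻¹ * ip w u)
  rw [h.nm_sub_sq, h.smul, nm_smul, KA.nm_mul, KA.nm_ofR_of_nonneg (inv_nonneg.2 hp.le),
    h.conj w u, mul_assoc, KA.mul_conj_self, KA.re_ofR_mul, KA.re_ofR] at h1
  have h2 : ((nm w ^ 2)⁻¹ * nm (ip w u) * nm w) ^ 2 = (nm w ^ 2)⁻¹ * nm (ip w u) ^ 2 := by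
    field_simp
  rw [h2] at h1
  have := mul_pos (inv_pos.2 hp) hq
  linarith

/-- uniqueness of the orthogonal projection onto any set -/
theorem proj_unique {V : Set H} {z v w : H} (hv : v ∈ V) (hw : w ∈ V)
    (h1 : ∀ y ∈ V, ip y (z - v) = 0) (h2 : ∀ y ∈ V, ip y (z - w) = 0) : v = w := by
  refine sub_eq_zero.1 (h.eq_zero_of_self ?_)
  have e : v - w = (z - w) - (z - v) := by abel
  rw [h.sub_left]
  nth_rewrite 1 [e]
  nth_rewrite 1 [e]
  rw [h.sub_right v, h.sub_right w, h1 v hv, h2 v hv, h1 w hw, h2 w hw]; simp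

end IsIP

/-- closed sets -/
def Closed (V : Set H) : Prop := ∀ x, (∀ ε : R, 0 < ε → ∃ y ∈ V, nm (x - y) < ε) → x ∈ V

variable {N : Type v} [ZM N] [Coded N R] [RF N R] [Coded N K] [KF N R K] [NA R K H] [Coded N H]
  [NS N R K H] [Cpl N R H]

theorem lt_of_sq_lt {a e : R} (he : 0 < e) (h : a ^ 2 < e ^ 2) : a < e :=
  lt_of_pow_lt_pow_left₀ 2 he.le h

/-- Existence of the orthogonal projection of a vector. -/
theorem IsIP.exists_orth {ip : H → H → K} (h : IsIP ip) {V : Set H} (hV : IsISub N K V)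
    (hc : Closed V) (z : H) : ∃ v ∈ V, ∀ y ∈ V, ip y (z - v) = 0 := by
  have := hV.intl
  obtain ⟨d, hd⟩ := RF.glb (N := N) {r : R | ∃ v ∈ V, nm (z - v) ^ 2 = r}
    (intl_setOfT (by fun_prop)) ⟨_, 0, hV.zero, rfl⟩
    ⟨0, by rintro _ ⟨v, -, rfl⟩; positivity⟩
  have hlow : ∀ v ∈ V, d ≤ nm (z - v) ^ 2 := fun v hv => hd.1 ⟨v, hv, rfl⟩
  have hd0 : 0 ≤ d := hd.2 (by rintro _ ⟨v, -, rfl⟩; positivity)
  obtain ⟨s, hs, hs'⟩ := exists_intl_choiceT (N := N)
    (R := fun (n : NN N) (v : H) => v ∈ V ∧ nm (z - v) ^ 2 < d + hp R n) (by fun_prop) fun n => by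
      by_contra hn
      push Not at hn
      have : d + hp R n ≤ d := hd.2 (by rintro _ ⟨v, hv, rfl⟩; exact hn v hv)
      linarith [hp_pos (R := R) n]
  have key : ∀ k l, nm (s k - s l) ^ 2 ≤ 2 * hp R k + 2 * hp R l := fun k l => by
    have h1 := h.parallelogram (z - s l) (z - s k)
    have h2 := hlow _ (hV.smul (algebraMap R K (1 / 2)) _ (hV.add _ (hs' k).1 _ (hs' l).1))
    have e1 : z - s l - (z - s k) = s k - s l := by abel
    have e2 : z - s l + (z - s k) =
        algebraMap R K 2 • (z - algebraMap R K (1 / 2) • (s k + s l)) := by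
      rw [smul_sub, smul_smul, ← map_mul, mul_one_div_cancel two_ne_zero, map_one, one_smul,
        map_ofNat, two_smul]; abel
    rw [e1, e2, nm_ofR_smul_of_nonneg zero_le_two] at h1
    nlinarith [(hs' k).2, (hs' l).2]
  obtain ⟨v, hv⟩ := Cpl.lim (N := N) (R := R) s hs fun ε hε => by
    obtain ⟨n, hn⟩ := exists_mul_hp_lt N (4 : R) (pow_pos hε 2)
    exact ⟨n, fun k l hk hl => lt_of_sq_lt hε (by linarith [key k l, hn k hk, hn l hl])⟩
  have hvV : v ∈ V := hc v fun ε hε => by
    obtain ⟨n, hn⟩ := hv ε hε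
    exact ⟨s n, (hs' n).1, by rw [nm_sub_rev]; exact hn n le_rfl⟩
  have hvd : nm (z - v) ^ 2 ≤ d := by
    refine le_of_forall_pos_le_add fun ε hε => ?_
    have hb : 0 < 2 * nm (z - v) + 1 := by linarith [nm_nonneg (z - v)]
    obtain ⟨n, hn⟩ := hv (ε / 2 / (2 * nm (z - v) + 1)) (by positivity)
    obtain ⟨m, hm⟩ := exists_hp_lt N (half_pos hε)
    have h1 := hn (max n m) (le_max_left _ _)
    have h2 := hm (max n m) (le_max_right _ _)
    have h3 := (hs' (max n m)).2
    have h4 := nm_triangle z (s (max n m)) v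
    rw [lt_div_iff₀ hb] at h1
    have h5 := nm_nonneg (z - v)
    have h6 := nm_nonneg (s (max n m) - v)
    have h7 := nm_nonneg (z - s (max n m))
    by_cases h8 : nm (z - v) ≤ nm (z - s (max n m))
    · nlinarith
    · push Not at h8
      nlinarith
  refine ⟨v, hvV, fun y hy => h.orth_of_min fun c => hvd.trans ?_⟩
  have := hlow _ (hV.add _ hvV _ (hV.smul c _ hy))
  rwa [← sub_sub] at this

open Classical in
/-- the orthogonal projection -/
noncomputable def proj (ip : H → H → K) (V : Set H) (z : H) : H :=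
  if h : ∃ v ∈ V, ∀ y ∈ V, ip y (z - v) = 0 then h.choose else 0

namespace IsIP

variable {ip : H → H → K} (h : IsIP ip)
include h

omit [ZM N] [Coded N R] [RF N R] [Coded N K] [KF N R K] [Coded N H] [NS N R K H] [Cpl N R H] in
theorem proj_eq {V : Set H} {z v : H} (hv : v ∈ V) (h1 : ∀ y ∈ V, ip y (z - v) = 0) :
    proj ip V z = v := by
  have h2 : ∃ v ∈ V, ∀ y ∈ V, ip y (z - v) = 0 := ⟨v, hv, h1⟩
  rw [proj, dif_pos h2]
  exact h.proj_unique h2.choose_spec.1 hv h2.choose_spec.2 h1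

omit [RF N R] [Cpl N R H] in
/-- the projection is definable in the subspace and the vector -/
theorem defF_proj (hd : DefF N (fun p : H × H => ip p.1 p.2)) {α : Type*} [Coded N α]
    {V : α → Set H} {z : α → H} (hV : DefF N V) (hz : DefF N z) :
    DefF N (fun a => proj ip (V a) (z a)) := by
  have hd' : ∀ {β : Type _} [Coded N β] {f g : β → H}, DefF N f → DefF N g →
      DefF N (fun b => ip (f b) (g b)) := fun hf hg => hd.comp2 hf hg
  refine defF_of_rel (R := fun a (v : H) => (v ∈ V a ∧ ∀ y ∈ V a, ip y (z a - v) = 0) ∨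
    ((¬ ∃ w ∈ V a, ∀ y ∈ V a, ip y (z a - w) = 0) ∧ v = 0)) (fun _ _ => inferInstance)
    (by fun_prop) fun a v _ _ => ⟨?_, ?_⟩
  · rintro (⟨h1, h2⟩ | ⟨h1, rfl⟩)
    · exact h.proj_eq h1 h2
    · rw [proj, dif_neg h1]
  · rintro rfl
    by_cases h1 : ∃ w ∈ V a, ∀ y ∈ V a, ip y (z a - w) = 0
    · left; rw [proj, dif_pos h1]; exact h1.choose_spec
    · right; exact ⟨h1, by rw [proj, dif_neg h1]⟩

variable {V : Set H} (hV : IsISub N K V) (hc : Closed V)
include hV hc

theorem proj_spec (z : H) : proj ip V z ∈ V ∧ ∀ y ∈ V, ip y (z - proj ip V z) = 0 := by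
  obtain ⟨v, h1, h2⟩ := h.exists_orth hV hc z
  rw [h.proj_eq h1 h2]; exact ⟨h1, h2⟩

theorem proj_mem (z : H) : proj ip V z ∈ V := (h.proj_spec hV hc z).1

theorem proj_orth (z : H) {y : H} (hy : y ∈ V) : ip y (z - proj ip V z) = 0 :=
  (h.proj_spec hV hc z).2 y hy

theorem proj_of_mem {z : H} (hz : z ∈ V) : proj ip V z = z :=
  h.proj_eq hz fun y _ => by rw [sub_self, h.zero_right]

theorem proj_of_orth {z : H} (hz : ∀ y ∈ V, ip y z = 0) : proj ip V z = 0 :=
  h.proj_eq hV.zero fun y hy => by rw [sub_zero, hz y hy]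

theorem proj_add (x y : H) : proj ip V (x + y) = proj ip V x + proj ip V y :=
  h.proj_eq (hV.add _ (h.proj_mem hV hc x) _ (h.proj_mem hV hc y)) fun w hw => by
    rw [add_sub_add_comm, h.add, h.proj_orth hV hc x hw, h.proj_orth hV hc y hw, add_zero]

theorem proj_smul (c : K) (x : H) : proj ip V (c • x) = c • proj ip V x :=
  h.proj_eq (hV.smul _ _ (h.proj_mem hV hc x)) fun w hw => by
    rw [← smul_sub, h.smul, h.proj_orth hV hc x hw, mul_zero]

theorem proj_adj (x y : H) : ip (proj ip V x) y = ip x (proj ip V y) := by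
  have h1 := h.proj_orth hV hc y (h.proj_mem hV hc x)
  have h2 := h.eq_zero_symm (h.proj_orth hV hc x (h.proj_mem hV hc y))
  rw [h.sub_right, sub_eq_zero] at h1
  rw [h.sub_left, sub_eq_zero] at h2
  rw [h1, h2]

theorem proj_sq (z : H) : nm z ^ 2 = nm (proj ip V z) ^ 2 + nm (z - proj ip V z) ^ 2 := by
  have := h.nm_add_sq (proj ip V z) (z - proj ip V z)
  rwa [add_sub_cancel, h.proj_orth hV hc z (h.proj_mem hV hc z), map_zero, mul_zero,
    add_zero] at this

theorem proj_nm_le (z : H) : nm (proj ip V z) ≤ nm z :=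
  le_of_sq_le_sq' (by rw [h.proj_sq hV hc z]; linarith [sq_nonneg (nm (z - proj ip V z))])
where le_of_sq_le_sq' {a b : H} (hab : nm a ^ 2 ≤ nm b ^ 2) : nm a ≤ nm b :=
  (abs_le_of_sq_le_sq' hab (nm_nonneg b)).2

/-- a closed subspace with trivial orthogonal complement is everything -/
theorem mem_of_orth (h0 : ∀ z, (∀ y ∈ V, ip y z = 0) → z = 0) (z : H) : z ∈ V := by
  have := h0 _ fun y hy => h.proj_orth hV hc z hy
  rw [sub_eq_zero.1 this]; exact h.proj_mem hV hc z

end IsIP

/-- The Riesz representation theorem. -/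
theorem IsIP.riesz {ip : H → H → K} (h : IsIP ip) {f : H → K} (hf : DefF N f)
    (add : ∀ x y, f (x + y) = f x + f y) (smul : ∀ (c : K) x, f (c • x) = c * f x) {C : R}
    (bd : ∀ x, nm (f x) ≤ C * nm x) : ∃ w, ∀ x, f x = ip w x := by
  have f0 : f 0 = 0 := by have := smul 0 0; rwa [zero_smul, zero_mul] at this
  have fsub : ∀ x y, f (x - y) = f x - f y := fun x y => by
    rw [sub_eq_add_neg, add, ← neg_one_smul K y, smul]; ring
  by_cases h0 : ∀ x, f x = 0
  · exact ⟨0, fun x => by rw [h0, h.zero_left]⟩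
  push Not at h0
  obtain ⟨z, hz⟩ := h0
  have hV : IsISub N K {x | f x = 0} := ⟨intl_setOfT (by fun_prop), f0,
    fun x hx y hy => by rw [Set.mem_setOf_eq, add, hx, hy, add_zero],
    fun c x hx => by rw [Set.mem_setOf_eq, smul, hx, mul_zero]⟩
  have hc : Closed {x | f x = 0} := fun x hx => by
    refine nm_le_zero_iff.1 (le_of_forall_pos_le_add fun ε hε => ?_)
    obtain ⟨y, hy, hxy⟩ := hx (ε / (|C| + 1)) (by positivity)
    have h1 := bd (x - y)
    rw [fsub, hy, sub_zero] at h1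
    rw [lt_div_iff₀ (by positivity)] at hxy
    nlinarith [le_abs_self C, nm_nonneg (x - y)]
  obtain ⟨v, hv, hv'⟩ := h.exists_orth hV hc z
  have hu : f (z - v) = f z := by rw [fsub, hv, sub_zero]
  have hu0 : ip (z - v) (z - v) ≠ 0 := fun e => hz (by rw [← hu, h.eq_zero_of_self e, f0])
  refine ⟨KA.conj (f z / ip (z - v) (z - v)) • (z - v), fun x => ?_⟩
  have h1 := h.eq_zero_symm (hv' (x - (f x / f z) • (z - v)) (by
    rw [Set.mem_setOf_eq, fsub, smul, hu, div_mul_cancel₀ _ hz, sub_self]))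
  rw [h.sub_right _ x, h.smul, sub_eq_zero] at h1
  rw [h.smul_left, KA.conj_conj, h1]
  field_simp

variable {L : Type*} [AddCommGroup L] [Module K L] [Nm L R] [NA R K L] [Coded N L] [NS N R K L]

/-- Adjoints. -/
theorem exists_adjoint {ip : H → H → K} {iq : L → L → K} (h : IsIP ip) (k : IsIP iq)
    (hd : DefF N (fun p : H × H => ip p.1 p.2)) (kd : DefF N (fun p : L × L => iq p.1 p.2))
    {T : H → L} (hT : DefF N T) (add : ∀ x y, T (x + y) = T x + T y)
    (smul : ∀ (c : K) x, T (c • x) = c • T x) {C : R} (hC : 0 ≤ C)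
    (bd : ∀ x, nm (T x) ≤ C * nm x) :
    ∃ S : L → H, DefF N S ∧ (∀ x y, S (x + y) = S x + S y) ∧ (∀ (c : K) x, S (c • x) = c • S x) ∧
      (∀ y, nm (S y) ≤ C * nm y) ∧ ∀ y x, ip (S y) x = iq y (T x) := by
  obtain ⟨S, hS, hS'⟩ := exists_intl_choiceT (N := N)
    (R := fun (y : L) (w : H) => ∀ x, ip w x = iq y (T x))
    (by fun_prop) fun y => by
      obtain ⟨w, hw⟩ := h.riesz (N := N) (f := fun x => iq y (T x))
        (kd.comp2 (DefF.const y) hT) (fun x z => by rw [add, k.add])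
        (fun c x => by rw [smul, k.smul]) (C := nm y * C) fun x => by
          rw [mul_assoc]
          exact (k.nm_le _ _).trans (mul_le_mul_of_nonneg_left (bd x) (nm_nonneg y))
      exact ⟨w, fun x => (hw x).symm⟩
  refine ⟨S, DefF.ofIntl S, fun x y => h.ext_left fun z => ?_, fun c x => h.ext_left fun z => ?_,
    fun y => ?_, hS'⟩
  · rw [h.add_left, hS', hS', hS', k.add_left]
  · rw [h.smul_left, hS', hS', k.smul_left]
  · have h1 := h.re_self (S y)
    rw [hS'] at h1
    have h2 := k.re_le y (T (S y))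
    have h3 := mul_le_mul_of_nonneg_left (bd (S y)) (nm_nonneg y)
    rcases (nm_nonneg (S y)).eq_or_lt with h4 | h4
    · rw [← h4]; exact mul_nonneg hC (nm_nonneg y)
    · exact le_of_mul_le_mul_right (by nlinarith) h4

end Vale.Agent.P070Z34
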