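import Vale.Agent.P070Z34.Hil
import Vale.Agent.P070ZA.Hs

/-!
# Projections, the Riesz theorem and adjoints for the Hilbert spaces of a model
-/

set_option autoImplicit false
set_option linter.all false

namespace Vale.Agent.P070Z

open Vale.Agent.P129B

universe v

variable {N : Type v} [ZM N] {α : Type*} [Coded N α]
  {R K : Type*} [Nm K R] [Field R] [LinearOrder R] [IsStrictOrderedRing R]
  [Field K] [Algebra R K] [KA R K] [StarRing K] [CX R K]
  {H : Type*} [AddCommGroup H] [Module K H] [Nm H R] [Ip H K] [IA R K H]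

theorem isIP34 : P070Z34.IsIP (ip : H → H → K) :=
  ⟨ip_add_right, ip_smul_right, fun x y => by rw [← CX.star_eq, star_ip], ip_self⟩

/-- the orthogonal projection of `z` onto `V` -/
noncomputable def pr (V : Set H) (z : H) : H := P070Z34.proj ip V z

include R in
theorem pr_eq {V : Set H} {z v : H} (hv : v ∈ V) (h : ∀ y ∈ V, ip y (z - v) = 0) :
    pr V z = v := (isIP34 (K := K) (H := H)).proj_eq hv h

variable [Coded N R] [RF N R] [Coded N K] [KF N R K] [Coded N H] [HS N R K H]

include R in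
@[fun_prop] theorem DefF.pr {V : α → Set H} {z : α → H} (hV : DefF N V) (hz : DefF N z) :
    DefF N (fun a => pr (V a) (z a)) := (isIP34 (K := K) (H := H)).defF_proj HS.defIp hV hz

section

variable {V : Set H} (hV : IsISub N K V) (hc : Cld V)
include hV hc

theorem pr_mem (z : H) : pr V z ∈ V := isIP34.proj_mem hV hc z

theorem pr_orth (z : H) {y : H} (hy : y ∈ V) : ip y (z - pr V z) = 0 :=
  isIP34.proj_orth hV hc z hy

theorem pr_of_mem {z : H} (hz : z ∈ V) : pr V z = z := isIP34.proj_of_mem hV hc hz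

theorem pr_of_orth {z : H} (hz : ∀ y ∈ V, ip y z = 0) : pr V z = 0 :=
  isIP34.proj_of_orth hV hc hz

theorem pr_add (x y : H) : pr V (x + y) = pr V x + pr V y := isIP34.proj_add hV hc x y

theorem pr_smul (c : K) (x : H) : pr V (c • x) = c • pr V x := isIP34.proj_smul hV hc c x

theorem pr_adj (x y : H) : ip (pr V x) y = ip x (pr V y) := isIP34.proj_adj hV hc x y

theorem pr_sq (z : H) : nm z ^ 2 = nm (pr V z) ^ 2 + nm (z - pr V z) ^ 2 :=
  isIP34.proj_sq hV hc z

theorem pr_nm_le (z : H) : nm (pr V z) ≤ nm z := isIP34.proj_nm_le hV hc z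

theorem pr_pr (z : H) : pr V (pr V z) = pr V z := pr_of_mem hV hc (pr_mem hV hc z)

theorem ip_pr_of_mem {y : H} (hy : y ∈ V) (z : H) : ip y (pr V z) = ip y z := by
  rw [← pr_adj hV hc, pr_of_mem hV hc hy]

theorem exists_orth_dec (z : H) : ∃ v ∈ V, ∀ y ∈ V, ip y (z - v) = 0 :=
  isIP34.exists_orth hV hc z

/-- a closed subspace with trivial orthogonal complement is everything -/
theorem mem_of_orth (h0 : ∀ z, (∀ y ∈ V, ip y z = 0) → z = 0) (z : H) : z ∈ V :=
  isIP34.mem_of_orth hV hc h0 z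

/-- a vector orthogonal to the orthogonal complement lies in the subspace -/
theorem mem_of_orth_orth {z : H} (h0 : ∀ w, (∀ y ∈ V, ip y w = 0) → ip w z = 0) : z ∈ V := by
  have h1 := h0 _ fun y hy => pr_orth hV hc z hy
  have h2 := ip_eq_zero_symm (pr_orth hV hc z (pr_mem hV hc z))
  have h3 : z - pr V z = 0 := ip_self_eq_zero.1 (by rw [ip_sub_right _ z, h1, h2, sub_zero])
  rw [sub_eq_zero.1 h3]; exact pr_mem hV hc z

end

/-- The Riesz representation theorem. -/
theorem riesz {f : H → K} (hf : DefF N f) (add : ∀ x y, f (x + y) = f x + f y)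
    (smul : ∀ (c : K) x, f (c • x) = c * f x) {C : R} (bd : ∀ x, nm (f x) ≤ C * nm x) :
    ∃ w, ∀ x, f x = ip w x := isIP34.riesz hf add smul bd

variable {L : Type*} [AddCommGroup L] [Module K L] [Nm L R] [Ip L K] [IA R K L] [Coded N L]
  [HS N R K L]

/-- Adjoints. -/
theorem exists_adj {T : H → L} (hT : DefF N T) (add : ∀ x y, T (x + y) = T x + T y)
    (smul : ∀ (c : K) x, T (c • x) = c • T x) {C : R} (hC : 0 ≤ C)
    (bd : ∀ x, nm (T x) ≤ C * nm x) :
    ∃ S : L → H, DefF N S ∧ (∀ x y, S (x + y) = S x + S y) ∧ (∀ (c : K) x, S (c • x) = c • S x) ∧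
      (∀ y, nm (S y) ≤ C * nm y) ∧ ∀ y x, ip (S y) x = ip y (T x) :=
  P070Z34.exists_adjoint isIP34 isIP34 HS.defIp HS.defIp hT add smul hC bd

/-- A bounded sesquilinear form is given by a bounded map. -/
theorem exists_of_form {B : L → H → K} (hB : DefF N (fun p : L × H => B p.1 p.2))
    (add : ∀ y x z, B y (x + z) = B y x + B y z) (smul : ∀ y (c : K) x, B y (c • x) = c * B y x)
    (add' : ∀ y z x, B (y + z) x = B y x + B z x)
    (smul' : ∀ (c : K) y x, B (c • y) x = star c * B y x) {C : R} (hC : 0 ≤ C)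
    (bd : ∀ y x, nm (B y x) ≤ C * nm y * nm x) :
    ∃ S : L → H, DefF N S ∧ (∀ x y, S (x + y) = S x + S y) ∧ (∀ (c : K) x, S (c • x) = c • S x) ∧
      (∀ y, nm (S y) ≤ C * nm y) ∧ ∀ y x, ip (S y) x = B y x := by
  obtain ⟨S, hS, hS'⟩ := exists_intl_choiceT (N := N)
    (R := fun (y : L) (w : H) => ∀ x, ip w x = B y x) (by fun_prop) fun y => by
      obtain ⟨w, hw⟩ := riesz (N := N) (f := fun x => B y x) (hB.comp2 (DefF.const y) DefF.id)
        (add y) (smul y) (bd y)
      exact ⟨w, fun x => (hw x).symm⟩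
  refine ⟨S, DefF.ofIntl S, fun x y => ext_ip_right fun z => ?_,
    fun c x => ext_ip_right fun z => ?_, fun y => ?_, hS'⟩
  · rw [ip_add_left, hS', hS', hS', add']
  · rw [ip_smul_left, hS', hS', smul']
  · exact nm_le_of_ip (mul_nonneg hC (nm_nonneg y)) (by rw [hS']; exact bd _ _)

end Vale.Agent.P070Z
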