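import Vale.Agent.P070Z34.Kit
import Vale.Agent.P070ZA.Op

/-!
# Neumann series, inverses of accretive operators, projections as operators
-/

set_option autoImplicit false
set_option linter.all false

namespace Vale.Agent.P070Z

open Vale.Agent.P129B

universe v

variable {N : Type v} [ZM N] {α : Type*} [Coded N α]
  {R K : Type*} [Nm K R] [Field R] [LinearOrder R] [IsStrictOrderedRing R]
  [Field K] [Algebra R K] [KA R K] [Coded N R] [RF N R] [Coded N K] [KF N R K]

section Ring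

variable {A : Type*} [Ring A] [Algebra K A] [Nm A R] [NA R K A] [Coded N A] [NS N R K A]
  [DefMul N A] [Cpl N R A]

include K in
/-- The Neumann series. -/
theorem neumann (hm : ∀ x y : A, nm (x * y) ≤ nm x * nm y) {x : A} (hx : nm x < 1) :
    ∃ y : A, y * (1 - x) = 1 ∧ (1 - x) * y = 1 ∧
      ∀ Q : A → Prop, DefF N Q → Cld {a | Q a} → Q 1 → (∀ a, Q a → Q (1 + a * x)) → Q y := by
  obtain ⟨s, hs, s0, sS⟩ := exists_intl_rec (N := N) (1 : A) (s := fun _ a => 1 + a * x)
    (by fun_prop)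
  have h0 := nm_nonneg x
  have hq : 0 < 1 - nm x := sub_pos.2 hx
  have d : ∀ n, nm (s (n + 1) - s n) ≤ nm x * ipow (nm x) n := fun n =>
    NN.ind (P := fun n => nm (s (n + 1) - s n) ≤ nm x * ipow (nm x) n) (by fun_prop)
      (by rw [sS, s0, one_mul, add_sub_cancel_left, ipow_zero, mul_one]) (fun n ih => by
        have e : s (n + 1 + 1) - s (n + 1) = (s (n + 1) - s n) * x := by
          rw [sS (n + 1), sub_mul]; nth_rewrite 2 [sS n]; abel
        rw [e, ipow_succ, ← mul_assoc]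
        exact (hm _ _).trans (mul_le_mul_of_nonneg_right ih h0)) n
  have c : ∀ k l, (1 - nm x) * nm (s (k + l) - s k) ≤ ipow (nm x) k - ipow (nm x) (k + l) :=
    fun k l => NN.ind (P := fun l => (1 - nm x) * nm (s (k + l) - s k) ≤
        ipow (nm x) k - ipow (nm x) (k + l)) (by fun_prop) (by simp) (fun l ih => by
      have h1 := d (k + l)
      have h2 := nm_triangle (s (k + l + 1)) (s (k + l)) (s k)
      have h3 := ipow_nonneg (N := N) h0 (k + l)
      rw [← add_assoc, ipow_succ]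
      nlinarith [mul_le_mul_of_nonneg_left h2 hq.le, mul_le_mul_of_nonneg_left h1 hq.le,
        mul_nonneg hq.le (mul_nonneg hq.le h3)]) l
  have c' : ∀ k l, k ≤ l → (1 - nm x) * nm (s l - s k) ≤ ipow (nm x) k := fun k l hkl => by
    obtain ⟨j, rfl⟩ := exists_add_of_le hkl
    linarith [c k j, ipow_nonneg (N := N) h0 (k + j)]
  obtain ⟨y, hy⟩ := exists_tt (DefF.ofIntl s) fun ε hε => by
    obtain ⟨n, hn⟩ := exists_ipow_lt (N := N) h0 hx (mul_pos hq (half_pos hε))
    refine ⟨n, fun k l hk hl => ?_⟩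
    have h1 := lt_of_mul_lt_mul_left ((c' n k hk).trans_lt (hn n le_rfl)) hq.le
    have h2 := lt_of_mul_lt_mul_left ((c' n l hl).trans_lt (hn n le_rfl)) hq.le
    rw [nm_sub_rev] at h2
    linarith [nm_triangle (s k) (s n) (s l)]
  have ind : ∀ Q : A → Prop, DefF N Q → Cld {a | Q a} → Q 1 → (∀ a, Q a → Q (1 + a * x)) → Q y :=
    fun Q hQ hc h1 h2 => hc.mem_of_tt hy fun k =>
      NN.ind (P := fun k => Q (s k)) (hQ.comp (DefF.ofIntl s)) (by rw [s0]; exact h1)
        (fun k ih => by rw [sS]; exact h2 _ ih) k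
  have e1 : 1 + y * x = y := by
    have a := hy.map (f := fun a => 1 + a * x) (C := nm x) fun a b => by
      rw [add_sub_add_left_eq_sub, ← sub_mul, mul_comm]; exact hm _ _
    refine a.uniq fun ε hε => ?_
    obtain ⟨n, hn⟩ := hy ε hε
    exact ⟨n, fun k hk => by simpa only [sS] using hn (k + 1) (hk.trans le_self_add)⟩
  have e2 : y * x - x * y = 0 := ind (fun a => a * x - x * a = 0) (by fun_prop)
    (cld_eq_zero (C := 2 * nm x) fun a b => by
      have e : a * x - x * a - (b * x - x * b) = (a - b) * x - x * (a - b) := by noncomm_ring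
      rw [e]
      linarith [nm_sub_le ((a - b) * x) (x * (a - b)), hm (a - b) x, hm x (a - b)])
    (by simp) fun a ha => by
      have e : (1 + a * x) * x - x * (1 + a * x) = (a * x - x * a) * x := by noncomm_ring
      rw [e, ha, zero_mul]
  refine ⟨y, ?_, ?_, ind⟩
  · rw [mul_sub, mul_one, sub_eq_iff_eq_add, e1]
  · rw [sub_mul, one_mul, ← sub_eq_zero.1 e2, sub_eq_iff_eq_add, e1]

end Ring

open Classical in
/-- the two-sided inverse, or zero -/
noncomputable def rinv {A : Type*} [Ring A] (x : A) : A :=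
  if h : ∃ y, y * x = 1 ∧ x * y = 1 then h.choose else 0

theorem rinv_eq {A : Type*} [Ring A] {x y : A} (h1 : y * x = 1) (h2 : x * y = 1) : rinv x = y := by
  have h : ∃ y, y * x = 1 ∧ x * y = 1 := ⟨y, h1, h2⟩
  rw [rinv, dif_pos h]
  exact left_inv_eq_right_inv h.choose_spec.1 h2

@[fun_prop] theorem DefF.rinv {A : Type*} [Ring A] [Coded N A] [Tot N A] [DefMul N A]
    {f : α → A} (hf : DefF N f) : DefF N (fun a => rinv (f a)) := by
  refine defF_of_rel (R := fun a (y : A) => (y * f a = 1 ∧ f a * y = 1) ∨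
    ((¬ ∃ w : A, w * f a = 1 ∧ f a * w = 1) ∧ y = 0)) (fun _ _ => inferInstance)
    (by fun_prop) fun a y _ _ => ⟨?_, ?_⟩
  · rintro (⟨h1, h2⟩ | ⟨h1, rfl⟩)
    · exact rinv_eq h1 h2
    · rw [P070Z.rinv, dif_neg h1]
  · rintro rfl
    by_cases h1 : ∃ w : A, w * f a = 1 ∧ f a * w = 1
    · left; rw [P070Z.rinv, dif_pos h1]; exact h1.choose_spec
    · right; exact ⟨h1, by rw [P070Z.rinv, dif_neg h1]⟩

variable [StarRing K] [CX R K] {H : Type*} [AddCommGroup H] [Module K H] [Nm H R] [Ip H K]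
  [IA R K H] [Coded N H] [HS N R K H]

include R K

/-- Bounded definable linear maps are operators. -/
theorem exists_op_of_lin {f : H → H} (hf : DefF N f) (add : ∀ x y, f (x + y) = f x + f y)
    (smul : ∀ (c : K) x, f (c • x) = c • f x) {C : R} (bd : ∀ x, nm (f x) ≤ C * nm x) :
    ∃ u : Op N K H, ∀ x, u x = f x := by
  obtain ⟨g, hg, -, -, -, h⟩ := exists_adj hf add smul (abs_nonneg C) (bd_abs bd)
  exact exists_op f g hf hg h C bd

/-- Bounded sesquilinear forms are given by operators. -/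
theorem exists_op_of_form {B : H → H → K} (hB : DefF N (fun p : H × H => B p.1 p.2))
    (add : ∀ y x z, B y (x + z) = B y x + B y z) (smul : ∀ y (c : K) x, B y (c • x) = c * B y x)
    (add' : ∀ y z x, B (y + z) x = B y x + B z x)
    (smul' : ∀ (c : K) y x, B (c • y) x = star c * B y x) {C : R} (hC : 0 ≤ C)
    (bd : ∀ y x, nm (B y x) ≤ C * nm y * nm x) :
    ∃ u : Op N K H, nm u ≤ C ∧ ∀ y x, ip y (u x) = B y x := by
  obtain ⟨S, h1, h2, h3, h4, h5⟩ := exists_of_form hB add smul add' smul' hC bd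
  obtain ⟨u, hu⟩ := exists_op_of_lin h1 h2 h3 h4
  exact ⟨star u, by rw [Op.nm_star]; exact Op.opNorm_le hC fun x => by rw [hu]; exact h4 x,
    fun y x => by rw [ip_star_right, hu, h5]⟩

/-- The orthogonal projection as an operator. -/
theorem exists_projOp {V : Set H} (hV : IsISub N K V) (hc : Cld V) :
    ∃ p : Op N K H, star p = p ∧ p * p = p ∧ nm p ≤ 1 ∧ (∀ z, p z = pr V z) ∧ (∀ z, p z ∈ V) ∧
      (∀ z ∈ V, p z = z) ∧ (∀ z, ∀ y ∈ V, ip y (z - p z) = 0) ∧
      ∀ z, (∀ y ∈ V, ip y z = 0) → p z = 0 := by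
  have := hV.intl
  obtain ⟨p, hp⟩ := exists_op (N := N) (pr V) (pr V) (by fun_prop) (by fun_prop) (pr_adj hV hc) 1
    fun x => by rw [one_mul]; exact pr_nm_le hV hc x
  refine ⟨p, sa_of_ip fun x y => by rw [hp, hp, pr_adj hV hc], Op.ext fun x => ?_,
    Op.opNorm_le zero_le_one fun x => by rw [hp, one_mul]; exact pr_nm_le hV hc x, hp,
    fun z => by rw [hp]; exact pr_mem hV hc z, fun z hz => by rw [hp, pr_of_mem hV hc hz],
    fun z y hy => by rw [hp]; exact pr_orth hV hc z hy,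
    fun z hz => by rw [hp, pr_of_orth hV hc hz]⟩
  rw [Op.mul_apply, hp, hp, pr_pr hV hc]

/-- An operator which leaves `V` invariant together with its adjoint commutes with the
projection. -/
theorem comm_pr {V : Set H} (hV : IsISub N K V) (hc : Cld V) {T : Op N K H}
    (h1 : ∀ z ∈ V, T z ∈ V) (h2 : ∀ z ∈ V, (star T) z ∈ V) (z : H) : pr V (T z) = T (pr V z) :=
  pr_eq (h1 _ (pr_mem hV hc z)) fun y hy => by
    rw [← map_sub, ← ip_star_left]; exact pr_orth hV hc z (h2 y hy)

/-- Inverses of strictly accretive operators. -/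
theorem exists_inv_of_re {x : Op N K H} {c : R} (hc : 0 < c)
    (h : ∀ z, c * nm z ^ 2 ≤ KA.re (ip z (x z))) :
    ∃ y : Op N K H, y * x = 1 ∧ x * y = 1 ∧ nm y ≤ c⁻¹ ∧
      ∀ S : Set (Op N K H), Intl N S → Cld S → 1 ∈ S → x ∈ S → (∀ a ∈ S, ∀ b ∈ S, a + b ∈ S) →
        (∀ a ∈ S, ∀ b ∈ S, a * b ∈ S) → (∀ (r : R), ∀ a ∈ S, algebraMap R K r • a ∈ S) →
        y ∈ S := by
  obtain ⟨D, hD, hcD⟩ : ∃ D : R, nm x ≤ D ∧ c < D :=
    ⟨nm x + c + 1, by linarith, by linarith [x.opNorm_nonneg]⟩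
  have hD0 : 0 < D := hc.trans hcD
  obtain ⟨t, ht⟩ : ∃ t : R, t = c / D ^ 2 := ⟨_, rfl⟩
  have ht0 : 0 < t := by rw [ht]; positivity
  have htD : t * D ^ 2 = c := by rw [ht]; field_simp
  have htc : t * c < 1 := by
    have : t * c * D ^ 2 < 1 * D ^ 2 := by nlinarith
    exact lt_of_mul_lt_mul_right this (by positivity)
  have hn : nm (1 - algebraMap R K t • x) < 1 := by
    refine (Op.opNorm_le (C := 1 - t * c / 2) (by linarith) fun z => ?_).trans_lt
      (by nlinarith [mul_pos ht0 hc])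
    refine (abs_le_of_sq_le_sq' ?_ (mul_nonneg (by linarith) (nm_nonneg z))).2
    rw [Op.sub_apply, Op.one_apply, Op.smul_apply, nm_sub_sq, ip_smul_right, KA.re_ofR_mul,
      nm_ofR_smul_of_nonneg ht0.le]
    have h1 := pow_le_pow_left₀ (nm_nonneg _) (Op.le_of_opNorm_le hD z) 2
    have h2 := mul_le_mul_of_nonneg_left (h z) ht0.le
    have h3 := mul_le_mul_of_nonneg_left h1 (sq_nonneg t)
    have h4 : t ^ 2 * (D * nm z) ^ 2 = t * c * nm z ^ 2 := by rw [← htD]; ring
    nlinarith [sq_nonneg (t * c * nm z)]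
  obtain ⟨y, h1, h2, h3⟩ := neumann (N := N) (K := K) Op.nm_mul_le hn
  rw [sub_sub_cancel] at h1 h2
  have h4 : x * (algebraMap R K t • y) = 1 := by rw [mul_smul_comm, ← smul_mul_assoc, h2]
  refine ⟨algebraMap R K t • y, by rw [smul_mul_assoc, ← mul_smul_comm, h1], h4,
    Op.opNorm_le (inv_nonneg.2 hc.le) fun z => ?_, fun S hS hc' s1 sx sa sm ss => ?_⟩
  · obtain ⟨w, hw⟩ : ∃ w, w = (algebraMap R K t • y) z := ⟨_, rfl⟩
    have h5 := h w
    have h6 : x w = z := by rw [hw, ← Op.mul_apply, h4, Op.one_apply]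
    rw [h6] at h5
    rw [← hw, le_inv_mul_iff₀ hc]
    rcases (nm_nonneg w).eq_or_lt with e | e
    · rw [← e, mul_zero]; exact nm_nonneg z
    · exact le_of_mul_le_mul_right (by nlinarith [re_ip_le w z]) e
  · refine ss t _ (h3 (fun a => a ∈ S) (by fun_prop) hc' s1 fun a ha => sa _ s1 _ (sm _ ha _ ?_))
    have := sa _ s1 _ (ss (-t) _ sx)
    rwa [map_neg, neg_smul, ← sub_eq_add_neg] at this

/-- the inverse commutes with whatever commutes with the operator -/
theorem comm_of_inv {A : Type*} [Ring A] {x y c : A} (h1 : y * x = 1) (h2 : x * y = 1)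
    (h : c * x = x * c) : c * y = y * c := by
  calc c * y = y * x * c * y := by rw [h1, one_mul]
    _ = y * c * (x * y) := by rw [mul_assoc y x c, ← h]; simp only [mul_assoc]
    _ = y * c := by rw [h2, mul_one]

theorem star_inv_eq {A : Type*} [Ring A] [StarRing A] {x y : A} (hx : star x = x)
    (h1 : y * x = 1) : star y = y := by
  have h2 : x * star y = 1 := by rw [← hx, ← star_mul, h1, star_one]
  exact (left_inv_eq_right_inv h1 h2).symm

end Vale.Agent.P070Z
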